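import Vale.Agent.P346.Final
import Vale.Agent.P346.Final0
import Vale.Agent.P346.Exist
import Vale.Agent.P346.Upper

/-!
# P346: the growth of `s_K(n)` over all fields

Over every field `s_K(n) ≤ n ^ (√n + 6)` for `n ≥ 2`; in characteristic zero
`s_K(n) ≥ n ^ (√n / 100)` for all large `n`, so that `s_K(n) = n ^ Θ(√n)`; in characteristic `p`
`s_K(n) ≥ 2 ^ (√n / (512 p ^ 3))` for `n ≥ 2 ^ 34 p ^ 12`.
-/

namespace Vale.Agent.Results.P346.AllFields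

open Vale.Agent.P346

lemma attained (K : Type*) [Field K] (n : ℕ) [NeZero n] :
    ∃ C : Circuit (Fin n × Fin n × Fin n) K,
      C.IsHomogeneous ∧ C.val = IMM K n n ∧ C.size = sK K n := by
  have hne : {s | ∃ C : Circuit (Fin n × Fin n × Fin n) K,
      C.IsHomogeneous ∧ C.val = IMM K n n ∧ C.size = s}.Nonempty := by
    obtain ⟨C, hC, hval⟩ := exists_circuit (IMM K n n) (IMM_homog K n n)
    exact ⟨C.size, C, hC, hval, rfl⟩
  exact Nat.sInf_mem hne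

theorem result :
    (∀ (K : Type*) [Field K] (n : ℕ) [NeZero n], 2 ≤ n →
      (∃ C : Circuit (Fin n × Fin n × Fin n) K,
        C.IsHomogeneous ∧ C.val = IMM K n n ∧ C.size = sK K n) ∧
      (sK K n : ℝ) ≤ (n : ℝ) ^ (√(n : ℝ) + 6)) ∧
    (∃ N₀ : ℕ, ∀ (K : Type*) [Field K] [CharZero K] (n : ℕ) [NeZero n], N₀ ≤ n →
      (n : ℝ) ^ (√(n : ℝ) / 100) ≤ (sK K n : ℝ)) ∧
    (∀ (p : ℕ) [Fact p.Prime] (K : Type*) [Field K] [CharP K p] (n : ℕ) [NeZero n],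
      2 ^ 34 * p ^ 12 ≤ n → (2 : ℝ) ^ (√(n : ℝ) / (512 * (p : ℝ) ^ 3)) ≤ (sK K n : ℝ)) := by
  refine ⟨?_, ?_, ?_⟩
  · intro K _ n _ hn
    exact ⟨attained K n, sK_upper K n hn⟩
  · obtain ⟨N₀, hN₀⟩ := size_lower0
    refine ⟨N₀, ?_⟩
    intro K _ _ n _ hn
    obtain ⟨C, hC, hval, hsize⟩ := attained K n
    rw [← hsize]
    obtain ⟨v, rfl⟩ : ∃ v, n = v + 1 := ⟨n - 1, by have := NeZero.pos n; omega⟩
    exact hN₀ K v hn C hC hval
  · intro p _ K _ _ n _ hn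
    obtain ⟨C, hC, hval, hsize⟩ := attained K n
    rw [← hsize]
    obtain ⟨v, rfl⟩ : ∃ v, n = v + 1 := ⟨n - 1, by have := NeZero.pos n; omega⟩
    exact size_lower p hn C hC hval

end Vale.Agent.Results.P346.AllFields
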