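import Vale.Agent.P346.Final0
import Vale.Agent.P346.Exist

/-!
# P346: the growth of `s_K(n)` in characteristic zero

For every field `K` of characteristic zero and all sufficiently large `n` (independently of `K`),
`s_K(n) ≥ n ^ (√n / 100)`.
-/

namespace Vale.Agent.Results.P346.Char0

open Vale.Agent.P346

theorem result : ∃ N₀ : ℕ, ∀ (K : Type*) [Field K] [CharZero K] (n : ℕ) [NeZero n], N₀ ≤ n →
    (∃ C : Circuit (Fin n × Fin n × Fin n) K,
      C.IsHomogeneous ∧ C.val = IMM K n n ∧ C.size = sK K n) ∧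
    (n : ℝ) ^ (√(n : ℝ) / 100) ≤ (sK K n : ℝ) := by
  obtain ⟨N₀, hN₀⟩ := size_lower0
  refine ⟨N₀, ?_⟩
  intro K _ _ n _ hn
  have hne : {s | ∃ C : Circuit (Fin n × Fin n × Fin n) K,
      C.IsHomogeneous ∧ C.val = IMM K n n ∧ C.size = s}.Nonempty := by
    obtain ⟨C, hC, hval⟩ := exists_circuit (IMM K n n) (IMM_homog K n n)
    exact ⟨C.size, C, hC, hval, rfl⟩
  have hmem := Nat.sInf_mem hne
  refine ⟨hmem, ?_⟩
  obtain ⟨C, hC, hval, hsize⟩ := hmem
  unfold sK
  rw [← hsize]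
  obtain ⟨v, rfl⟩ : ∃ v, n = v + 1 := ⟨n - 1, by have := NeZero.pos n; omega⟩
  exact hN₀ K v hn C hC hval

end Vale.Agent.Results.P346.Char0
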