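import Vale.Agent.P346.UFinal
import Vale.Agent.P346.UMap
import Vale.Agent.P346.Exist
import Vale.Agent.P346.Upper

/-!
# P346: the growth of `s_K(n)` over every field

There is an absolute constant `N₀` such that for every field `K`, of any characteristic, and every
`n ≥ N₀`, `n ^ (√n / 100) ≤ s_K(n) ≤ n ^ (√n + 6)`. So `s_K(n) = n ^ Θ(√n)`, uniformly in `K`.
-/

namespace Vale.Agent.Results.P346.EveryField

open Vale.Agent.P346

lemma attained (K : Type*) [Field K] (n : ℕ) [NeZero n] :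
    ∃ C : Circuit (Fin n × Fin n × Fin n) K,
      C.IsHomogeneous ∧ C.val = IMM K n n ∧ C.size = sK K n := by
  have hne : {s | ∃ C : Circuit (Fin n × Fin n × Fin n) K,
      C.IsHomogeneous ∧ C.val = IMM K n n ∧ C.size = s}.Nonempty := by
    obtain ⟨C, hC, hval⟩ := exists_circuit (IMM K n n) (IMM_homog K n n)
    exact ⟨C.size, C, hC, hval, rfl⟩
  exact Nat.sInf_mem hne

theorem result : ∃ N₀ : ℕ, ∀ (K : Type*) [Field K] (n : ℕ) [NeZero n], N₀ ≤ n →
    (∃ C : Circuit (Fin n × Fin n × Fin n) K,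
      C.IsHomogeneous ∧ C.val = IMM K n n ∧ C.size = sK K n) ∧
    (n : ℝ) ^ (√(n : ℝ) / 100) ≤ (sK K n : ℝ) ∧
    (sK K n : ℝ) ≤ (n : ℝ) ^ (√(n : ℝ) + 6) := by
  obtain ⟨N₀, hN₀⟩ := size_lowerInf
  refine ⟨max N₀ 2, ?_⟩
  intro K _ n _ hn
  have hn1 : N₀ ≤ n := (le_max_left _ _).trans hn
  have hn2 : 2 ≤ n := (le_max_right _ _).trans hn
  refine ⟨attained K n, ?_, sK_upper K n hn2⟩
  obtain ⟨C, hC, hval, hsize⟩ := attained K n
  rw [← hsize]
  obtain ⟨v, rfl⟩ : ∃ v, n = v + 1 := ⟨n - 1, by have := NeZero.pos n; omega⟩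
  have h := hN₀ (AlgebraicClosure K) v hn1 (C.mapK (algebraMap K (AlgebraicClosure K)))
    (C.mapK_homog _ hC) (by rw [Circuit.mapK_val, hval, map_IMM])
  exact h

end Vale.Agent.Results.P346.EveryField
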