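import Vale.Agent.P346.Final
import Vale.Agent.P346.Exist

/-!
# P346: exponential lower bound over all fields of positive characteristic

For every prime `p`, every field `K` of characteristic `p` and every `n ≥ 2 ^ 34 * p ^ 12`,
the minimum `s_K(n)` of the sizes of syntactically homogeneous `ΣΠΣΠΣ` circuits computing
`IMM_{n,n}` is attained and is at least `2 ^ (√n / (512 p ^ 3))`.
-/

namespace Vale.Agent.Results.P346.PosChar

open Vale.Agent.P346

theorem result (p : ℕ) [Fact p.Prime] (K : Type*) [Field K] [CharP K p] (n : ℕ) [NeZero n]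
    (hn : 2 ^ 34 * p ^ 12 ≤ n) :
    (∃ C : Circuit (Fin n × Fin n × Fin n) K,
      C.IsHomogeneous ∧ C.val = IMM K n n ∧ C.size = sK K n) ∧
    (2 : ℝ) ^ (√(n : ℝ) / (512 * (p : ℝ) ^ 3)) ≤ (sK K n : ℝ) := by
  have hne : {s | ∃ C : Circuit (Fin n × Fin n × Fin n) K,
      C.IsHomogeneous ∧ C.val = IMM K n n ∧ C.size = s}.Nonempty := by
    obtain ⟨C, hC, hval⟩ := exists_circuit (IMM K n n) (IMM_homog K n n)
    exact ⟨C.size, C, hC, hval, rfl⟩
  have hmem := Nat.sInf_mem hne
  refine ⟨hmem, ?_⟩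
  obtain ⟨C, hC, hval, hsize⟩ := hmem
  unfold sK
  rw [← hsize]
  obtain ⟨v, rfl⟩ : ∃ v, n = v + 1 := ⟨n - 1, by have := NeZero.pos n; omega⟩
  exact size_lower p hn C hC hval

end Vale.Agent.Results.P346.PosChar
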